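import Mathlib

/-!
# A clique-cover / sparse-set dichotomy for graphs with few vertices

For a symmetric irreflexive relation `r` on a finite vertex set `V` with at most `m + 4`
vertices, either `V` splits into at most `m + 1` cliques of `r` (encoded by a map `g` whose
fibres are cliques), or there is a set of at least `m + 2` vertices inducing a graph of
maximum degree at most one.
-/

namespace Vale.Agent.H14

open Finset

variable {α : Type*} [DecidableEq α]

/-- Merging the points of `B` into representatives outside `B`. -/
theorem merge_cover (V : Finset α) (r : α → α → Prop) (B : Finset α) (hB : B ⊆ V) (φ : α → α)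
    (h1 : ∀ b ∈ B, φ b ∈ V ∧ φ b ∉ B ∧ r b (φ b))
    (h2 : ∀ b ∈ B, ∀ b' ∈ B, φ b = φ b' → b = b' ∨ r b b')
    (hs : ∀ x y, r x y → r y x) :
    ∃ g : α → α, (∀ x ∈ V, ∀ y ∈ V, g x = g y → x = y ∨ r x y) ∧
      (V.image g).card + B.card ≤ V.card := by
  refine ⟨fun x => if x ∈ B then φ x else x, ?_, ?_⟩
  · intro x hx y hy hxy
    by_cases hxB : x ∈ B <;> by_cases hyB : y ∈ B
    · simp only [hxB, hyB, if_true] at hxy
      exact h2 x hxB y hyB hxy
    · simp only [hxB, hyB, if_true, if_false] at hxy
      right
      rw [← hxy]
      exact (h1 x hxB).2.2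
    · simp only [hxB, hyB, if_true, if_false] at hxy
      right
      rw [hxy]
      exact hs _ _ (h1 y hyB).2.2
    · simp only [hxB, hyB, if_false] at hxy
      left; exact hxy
  · have hsub : V.image (fun x => if x ∈ B then φ x else x) ⊆ V \ B := by
      intro z hz
      rw [Finset.mem_image] at hz
      obtain ⟨x, hx, rfl⟩ := hz
      by_cases hxB : x ∈ B
      · have h3 : (if x ∈ B then φ x else x) = φ x := if_pos hxB
        rw [h3, Finset.mem_sdiff]
        exact ⟨(h1 x hxB).1, (h1 x hxB).2.1⟩
      · have h3 : (if x ∈ B then φ x else x) = x := if_neg hxB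
        rw [h3, Finset.mem_sdiff]
        exact ⟨hx, hxB⟩
    have hc := Finset.card_le_card hsub
    have hc2 : (V \ B).card + B.card = V.card := Finset.card_sdiff_add_card_eq_card hB
    omega

/-- The sparse set in the two-disjoint-edges case. -/
theorem sparse_four (V : Finset α) (r : α → α → Prop) (hs : ∀ x y, r x y → r y x)
    (hi : ∀ x, ¬ r x x) (S : Finset α) (a b c e : α)
    (hS : ∀ x, x ∈ S ↔ x = a ∨ x = b ∨ x = c ∨ x = e)
    (hout : ∀ x ∈ V, ∀ y ∈ V, x ∉ S → y ∉ S → ¬ r x y)
    (hb : ∀ y ∈ V, y ∉ S → ¬ r b y) (he : ∀ y ∈ V, y ∉ S → ¬ r e y) :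
    ∀ x ∈ (V.erase a).erase c, ∀ y ∈ (V.erase a).erase c, ∀ z ∈ (V.erase a).erase c,
      r x y → r x z → y = z := by
  have hcl : ∀ x ∈ (V.erase a).erase c, x ∈ V ∧ (x ∉ S ∨ x = b ∨ x = e) := by
    intro x hx
    simp only [Finset.mem_erase] at hx
    refine ⟨hx.2.2, ?_⟩
    by_cases hxS : x ∈ S
    · right
      rcases (hS x).1 hxS with h | h | h | h
      · exact absurd h hx.2.1
      · exact Or.inl h
      · exact absurd h hx.1
      · exact Or.inr h
    · exact Or.inl hxS
  have key : ∀ x ∈ (V.erase a).erase c, ∀ y ∈ (V.erase a).erase c, r x y →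
      (x = b ∧ y = e) ∨ (x = e ∧ y = b) := by
    intro x hx y hy hxy
    obtain ⟨hxV, hx'⟩ := hcl x hx
    obtain ⟨hyV, hy'⟩ := hcl y hy
    rcases hx' with hx' | hx' | hx'
    · rcases hy' with hy' | hy' | hy'
      · exact absurd hxy (hout x hxV y hyV hx' hy')
      · subst hy'; exact absurd (hs _ _ hxy) (hb x hxV hx')
      · subst hy'; exact absurd (hs _ _ hxy) (he x hxV hx')
    · subst hx'
      rcases hy' with hy' | hy' | hy'
      · exact absurd hxy (hb y hyV hy')
      · subst hy'; exact absurd hxy (hi _)
      · exact Or.inl ⟨rfl, hy'⟩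
    · subst hx'
      rcases hy' with hy' | hy' | hy'
      · exact absurd hxy (he y hyV hy')
      · exact Or.inr ⟨rfl, hy'⟩
      · subst hy'; exact absurd hxy (hi _)
  intro x hx y hy z hz hxy hxz
  rcases key x hx y hy hxy with ⟨h1, h2⟩ | ⟨h1, h2⟩ <;>
    rcases key x hx z hz hxz with ⟨h3, h4⟩ | ⟨h3, h4⟩
  · rw [h2, h4]
  · rw [h2, h4, ← h1, ← h3]
  · rw [h2, h4, ← h1, ← h3]
  · rw [h2, h4]

end Vale.Agent.H14

namespace Vale.Agent.H14

open Finset

variable {α : Type*} [DecidableEq α]

/-- Clique-cover / sparse-set dichotomy for at most `m + 4` vertices. -/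
theorem graph_dichotomy (V : Finset α) (r : α → α → Prop) (hs : ∀ x y, r x y → r y x)
    (hi : ∀ x, ¬ r x x) (m : ℕ) (hV : V.card ≤ m + 4) :
    (∃ g : α → α, (∀ x ∈ V, ∀ y ∈ V, g x = g y → x = y ∨ r x y) ∧ (V.image g).card ≤ m + 1) ∨
    (∃ R : Finset α, R ⊆ V ∧ m + 2 ≤ R.card ∧
      ∀ x ∈ R, ∀ y ∈ R, ∀ z ∈ R, r x y → r x z → y = z) := by
  have hne : ∀ x y, r x y → x ≠ y := fun x y hxy h => hi x (by rw [← h] at hxy; exact hxy)
  by_cases h1 : V.card ≤ m + 1
  · left
    exact ⟨id, fun x _ y _ h => Or.inl h, by simpa using h1⟩
  by_cases hE1 : ∃ a ∈ V, ∃ b ∈ V, r a b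
  swap
  · right
    refine ⟨V, subset_rfl, by omega, ?_⟩
    intro x hx y hy z _ hxy _
    exact absurd ⟨x, hx, y, hy, hxy⟩ hE1
  obtain ⟨a, ha, b, hb, hab⟩ := hE1
  have hab' : a ≠ b := hne a b hab
  by_cases h2 : V.card ≤ m + 2
  · left
    obtain ⟨g, hg, hc⟩ := merge_cover V r {b} (by simpa using hb) (fun _ => a)
      (by
        intro x hx
        rw [Finset.mem_singleton] at hx
        subst hx
        exact ⟨ha, by simpa using hab', hs _ _ hab⟩)
      (by
        intro x hx y hy _
        rw [Finset.mem_singleton] at hx hy
        left; rw [hx, hy]) hs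
    refine ⟨g, hg, ?_⟩
    rw [Finset.card_singleton] at hc
    omega
  by_cases hE2 : ∃ c ∈ V, ∃ e ∈ V, ∃ p ∈ V, ∃ q ∈ V,
      r c e ∧ r p q ∧ c ≠ p ∧ c ≠ q ∧ e ≠ p ∧ e ≠ q
  · obtain ⟨c, hc, e, he, p, hp, q, hq, hce, hpq, hcp, hcq, hep, heq⟩ := hE2
    have hce' : c ≠ e := hne c e hce
    have hpq' : p ≠ q := hne p q hpq
    by_cases h3 : V.card ≤ m + 3
    · left
      obtain ⟨g, hg, hcard⟩ := merge_cover V r {e, q}
        (by
          intro x hx
          rw [Finset.mem_insert, Finset.mem_singleton] at hx
          rcases hx with rfl | rfl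
          · exact he
          · exact hq)
        (fun x => if x = e then c else p)
        (by
          intro x hx
          rw [Finset.mem_insert, Finset.mem_singleton] at hx
          rcases hx with rfl | rfl
          · rw [if_pos rfl]
            refine ⟨hc, ?_, hs _ _ hce⟩
            rw [Finset.mem_insert, Finset.mem_singleton]
            rintro (h | h)
            · exact hce' h
            · exact hcq h
          · rw [if_neg (Ne.symm heq)]
            refine ⟨hp, ?_, hs _ _ hpq⟩
            rw [Finset.mem_insert, Finset.mem_singleton]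
            rintro (h | h)
            · exact hep h.symm
            · exact hpq' h)
        (by
          intro x hx y hy hxy
          rw [Finset.mem_insert, Finset.mem_singleton] at hx hy
          rcases hx with rfl | rfl <;> rcases hy with rfl | rfl
          · left; rfl
          · rw [if_pos rfl, if_neg (Ne.symm heq)] at hxy
            exact absurd hxy hcp
          · rw [if_pos rfl, if_neg (Ne.symm heq)] at hxy
            exact absurd hxy.symm hcp
          · left; rfl) hs
      refine ⟨g, hg, ?_⟩
      rw [Finset.card_pair heq] at hcard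
      omega
    · -- card = m + 4
      by_cases hE3 : ∃ a1 ∈ V, ∃ b1 ∈ V, ∃ a2 ∈ V, ∃ b2 ∈ V, ∃ a3 ∈ V, ∃ b3 ∈ V,
          r a1 b1 ∧ r a2 b2 ∧ r a3 b3 ∧ a1 ≠ a2 ∧ a1 ≠ b2 ∧ a1 ≠ a3 ∧ a1 ≠ b3 ∧
          b1 ≠ a2 ∧ b1 ≠ b2 ∧ b1 ≠ a3 ∧ b1 ≠ b3 ∧ a2 ≠ a3 ∧ a2 ≠ b3 ∧ b2 ≠ a3 ∧ b2 ≠ b3
      · left
        obtain ⟨a1, ha1, b1, hb1, a2, ha2, b2, hb2, a3, ha3, b3, hb3, h11, h22, h33,
          n1, n2, n3, n4, n5, n6, n7, n8, n9, n10, n11, n12⟩ := hE3
        have e1 : a1 ≠ b1 := hne _ _ h11
        have e2 : a2 ≠ b2 := hne _ _ h22
        have e3 : a3 ≠ b3 := hne _ _ h33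
        obtain ⟨g, hg, hcard⟩ := merge_cover V r {b1, b2, b3}
          (by
            intro x hx
            simp only [Finset.mem_insert, Finset.mem_singleton] at hx
            rcases hx with rfl | rfl | rfl
            · exact hb1
            · exact hb2
            · exact hb3)
          (fun x => if x = b1 then a1 else if x = b2 then a2 else a3)
          (by
            intro x hx
            simp only [Finset.mem_insert, Finset.mem_singleton] at hx
            rcases hx with rfl | rfl | rfl
            · rw [if_pos rfl]
              refine ⟨ha1, ?_, hs _ _ h11⟩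
              simp only [Finset.mem_insert, Finset.mem_singleton]
              rintro (h | h | h)
              · exact e1 h
              · exact n2 h
              · exact n4 h
            · rw [if_neg (Ne.symm n6), if_pos rfl]
              refine ⟨ha2, ?_, hs _ _ h22⟩
              simp only [Finset.mem_insert, Finset.mem_singleton]
              rintro (h | h | h)
              · exact n5 h.symm
              · exact e2 h
              · exact n10 h
            · rw [if_neg (Ne.symm n8), if_neg (Ne.symm n12)]
              refine ⟨ha3, ?_, hs _ _ h33⟩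
              simp only [Finset.mem_insert, Finset.mem_singleton]
              rintro (h | h | h)
              · exact n7 h.symm
              · exact n11 h.symm
              · exact e3 h)
          (by
            intro x hx y hy hxy
            simp only [Finset.mem_insert, Finset.mem_singleton] at hx hy
            rcases hx with rfl | rfl | rfl <;> rcases hy with rfl | rfl | rfl
            · left; rfl
            · rw [if_pos rfl, if_neg (Ne.symm n6), if_pos rfl] at hxy
              exact absurd hxy n1
            · rw [if_pos rfl, if_neg (Ne.symm n8), if_neg (Ne.symm n12)] at hxy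
              exact absurd hxy n3
            · rw [if_pos rfl, if_neg (Ne.symm n6), if_pos rfl] at hxy
              exact absurd hxy.symm n1
            · left; rfl
            · rw [if_neg (Ne.symm n6), if_pos rfl, if_neg (Ne.symm n8), if_neg (Ne.symm n12)]
                at hxy
              exact absurd hxy n9
            · rw [if_pos rfl, if_neg (Ne.symm n8), if_neg (Ne.symm n12)] at hxy
              exact absurd hxy.symm n3
            · rw [if_neg (Ne.symm n6), if_pos rfl, if_neg (Ne.symm n8), if_neg (Ne.symm n12)]
                at hxy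
              exact absurd hxy.symm n9
            · left; rfl) hs
        refine ⟨g, hg, ?_⟩
        have h3c : ({b1, b2, b3} : Finset α).card = 3 := by
          rw [Finset.card_insert_of_notMem, Finset.card_pair n12]
          simp only [Finset.mem_insert, Finset.mem_singleton]
          rintro (h | h)
          · exact n6 h
          · exact n8 h
        rw [h3c] at hcard
        omega
      by_cases hT1 : ∃ u ∈ V, ∃ a' ∈ V, ∃ b' ∈ V, ∃ c' ∈ V, ∃ e' ∈ V,
          r u a' ∧ r u b' ∧ r a' b' ∧ r c' e' ∧ u ≠ c' ∧ u ≠ e' ∧ a' ≠ c' ∧ a' ≠ e' ∧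
          b' ≠ c' ∧ b' ≠ e'
      · left
        obtain ⟨u, hu, a', ha', b', hb', c', hc', e', he', hua, hub, hab2, hce2,
          n1, n2, n3, n4, n5, n6⟩ := hT1
        have e1 : u ≠ a' := hne _ _ hua
        have e2 : u ≠ b' := hne _ _ hub
        have e3 : a' ≠ b' := hne _ _ hab2
        have e4 : c' ≠ e' := hne _ _ hce2
        obtain ⟨g, hg, hcard⟩ := merge_cover V r {a', b', e'}
          (by
            intro x hx
            simp only [Finset.mem_insert, Finset.mem_singleton] at hx
            rcases hx with rfl | rfl | rfl
            · exact ha'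
            · exact hb'
            · exact he')
          (fun x => if x = e' then c' else u)
          (by
            intro x hx
            simp only [Finset.mem_insert, Finset.mem_singleton] at hx
            rcases hx with rfl | rfl | rfl
            · rw [if_neg n4]
              refine ⟨hu, ?_, hs _ _ hua⟩
              simp only [Finset.mem_insert, Finset.mem_singleton]
              rintro (h | h | h)
              · exact e1 h
              · exact e2 h
              · exact n2 h
            · rw [if_neg n6]
              refine ⟨hu, ?_, hs _ _ hub⟩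
              simp only [Finset.mem_insert, Finset.mem_singleton]
              rintro (h | h | h)
              · exact e1 h
              · exact e2 h
              · exact n2 h
            · rw [if_pos rfl]
              refine ⟨hc', ?_, hs _ _ hce2⟩
              simp only [Finset.mem_insert, Finset.mem_singleton]
              rintro (h | h | h)
              · exact n3 h.symm
              · exact n5 h.symm
              · exact e4 h)
          (by
            intro x hx y hy hxy
            simp only [Finset.mem_insert, Finset.mem_singleton] at hx hy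
            rcases hx with rfl | rfl | rfl <;> rcases hy with rfl | rfl | rfl
            · left; rfl
            · right; exact hab2
            · rw [if_neg n4, if_pos rfl] at hxy
              exact absurd hxy n1
            · right; exact hs _ _ hab2
            · left; rfl
            · rw [if_neg n6, if_pos rfl] at hxy
              exact absurd hxy n1
            · rw [if_pos rfl, if_neg n4] at hxy
              exact absurd hxy.symm n1
            · rw [if_pos rfl, if_neg n6] at hxy
              exact absurd hxy.symm n1
            · left; rfl) hs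
        refine ⟨g, hg, ?_⟩
        have h3c : ({a', b', e'} : Finset α).card = 3 := by
          rw [Finset.card_insert_of_notMem, Finset.card_pair n6]
          simp only [Finset.mem_insert, Finset.mem_singleton]
          rintro (h | h)
          · exact e3 h
          · exact n4 h
        rw [h3c] at hcard
        omega
      · right
        -- the sparse set
        set S : Finset α := {c, e, p, q} with hSdef
        have hSmem : ∀ x, x ∈ S ↔ x = c ∨ x = e ∨ x = p ∨ x = q := by
          intro x; simp [hSdef]
        have hout : ∀ x ∈ V, ∀ y ∈ V, x ∉ S → y ∉ S → ¬ r x y := by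
          intro x hx y hy hxS hyS hxy
          rw [hSmem] at hxS hyS
          push Not at hxS hyS
          exact hE3 ⟨c, hc, e, he, p, hp, q, hq, x, hx, y, hy, hce, hpq, hxy, hcp, hcq,
            hxS.1.symm, hyS.1.symm, hep, heq, hxS.2.1.symm, hyS.2.1.symm,
            hxS.2.2.1.symm, hyS.2.2.1.symm, hxS.2.2.2.symm, hyS.2.2.2.symm⟩
        have hfree1 : (∀ y ∈ V, y ∉ S → ¬ r c y) ∨ (∀ y ∈ V, y ∉ S → ¬ r e y) := by
          by_contra hcon
          push Not at hcon
          obtain ⟨⟨y1, hy1, hy1S, hcy1⟩, ⟨y2, hy2, hy2S, hey2⟩⟩ := hcon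
          rw [hSmem] at hy1S hy2S
          push Not at hy1S hy2S
          by_cases hyy : y1 = y2
          · subst hyy
            exact hT1 ⟨y1, hy1, c, hc, e, he, p, hp, q, hq, hs _ _ hcy1, hs _ _ hey2, hce, hpq,
              hy1S.2.2.1, hy1S.2.2.2, hcp, hcq, hep, heq⟩
          · exact hE3 ⟨c, hc, y1, hy1, e, he, y2, hy2, p, hp, q, hq, hcy1, hey2, hpq,
              hce', hy2S.1.symm, hcp, hcq, hy1S.2.1, hyy, hy1S.2.2.1, hy1S.2.2.2,
              hep, heq, hy2S.2.2.1, hy2S.2.2.2⟩
        have hfree2 : (∀ y ∈ V, y ∉ S → ¬ r p y) ∨ (∀ y ∈ V, y ∉ S → ¬ r q y) := by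
          by_contra hcon
          push Not at hcon
          obtain ⟨⟨y1, hy1, hy1S, hpy1⟩, ⟨y2, hy2, hy2S, hqy2⟩⟩ := hcon
          rw [hSmem] at hy1S hy2S
          push Not at hy1S hy2S
          by_cases hyy : y1 = y2
          · subst hyy
            exact hT1 ⟨y1, hy1, p, hp, q, hq, c, hc, e, he, hs _ _ hpy1, hs _ _ hqy2, hpq, hce,
              hy1S.1, hy1S.2.1, Ne.symm hcp, Ne.symm hep, Ne.symm hcq, Ne.symm heq⟩
          · exact hE3 ⟨p, hp, y1, hy1, q, hq, y2, hy2, c, hc, e, he, hpy1, hqy2, hce,
              hpq', hy2S.2.2.1.symm, Ne.symm hcp, Ne.symm hep, hy1S.2.2.2, hyy, hy1S.1,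
              hy1S.2.1, Ne.symm hcq, Ne.symm heq, hy2S.1, hy2S.2.1⟩
        have hcardR : ∀ o1 ∈ V, ∀ o2 ∈ V, o2 ≠ o1 → m + 2 ≤ ((V.erase o1).erase o2).card := by
          intro o1 ho1 o2 ho2 hne'
          rw [Finset.card_erase_of_mem (Finset.mem_erase.2 ⟨hne', ho2⟩),
            Finset.card_erase_of_mem ho1]
          omega
        have hsubR : ∀ o1 o2 : α, (V.erase o1).erase o2 ⊆ V := fun o1 o2 =>
          (Finset.erase_subset _ _).trans (Finset.erase_subset _ _)
        rcases hfree1 with hf1 | hf1 <;> rcases hfree2 with hf2 | hf2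
        · -- free: c, p; delete e, q
          refine ⟨(V.erase e).erase q, hsubR _ _, hcardR e he q hq (Ne.symm heq), ?_⟩
          exact sparse_four V r hs hi S e c q p
            (by intro x; have h9 := hSmem x; tauto) hout hf1 hf2
        · -- free: c, q; delete e, p
          refine ⟨(V.erase e).erase p, hsubR _ _, hcardR e he p hp (Ne.symm hep), ?_⟩
          exact sparse_four V r hs hi S e c p q
            (by intro x; have h9 := hSmem x; tauto) hout hf1 hf2
        · -- free: e, p; delete c, q
          refine ⟨(V.erase c).erase q, hsubR _ _, hcardR c hc q hq (Ne.symm hcq), ?_⟩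
          exact sparse_four V r hs hi S c e q p
            (by intro x; have h9 := hSmem x; tauto) hout hf1 hf2
        · -- free: e, q; delete c, p
          refine ⟨(V.erase c).erase p, hsubR _ _, hcardR c hc p hp (Ne.symm hcp), ?_⟩
          exact sparse_four V r hs hi S c e p q
            (by intro x; have h9 := hSmem x; tauto) hout hf1 hf2
  · -- no two disjoint edges
    by_cases h3 : V.card ≤ m + 3
    · by_cases hT : ∃ u ∈ V, ∃ p ∈ V, ∃ q ∈ V, r u p ∧ r u q ∧ r p q
      · left
        obtain ⟨u, hu, p, hp, q, hq, hup, huq, hpq⟩ := hT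
        have e1 : u ≠ p := hne _ _ hup
        have e2 : u ≠ q := hne _ _ huq
        have e3 : p ≠ q := hne _ _ hpq
        obtain ⟨g, hg, hcard⟩ := merge_cover V r {p, q}
          (by
            intro x hx
            rw [Finset.mem_insert, Finset.mem_singleton] at hx
            rcases hx with rfl | rfl
            · exact hp
            · exact hq)
          (fun _ => u)
          (by
            intro x hx
            rw [Finset.mem_insert, Finset.mem_singleton] at hx
            have hnot : u ∉ ({p, q} : Finset α) := by
              rw [Finset.mem_insert, Finset.mem_singleton]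
              rintro (h | h)
              · exact e1 h
              · exact e2 h
            rcases hx with rfl | rfl
            · exact ⟨hu, hnot, hs _ _ hup⟩
            · exact ⟨hu, hnot, hs _ _ huq⟩)
          (by
            intro x hx y hy _
            rw [Finset.mem_insert, Finset.mem_singleton] at hx hy
            rcases hx with rfl | rfl <;> rcases hy with rfl | rfl
            · left; rfl
            · right; exact hpq
            · right; exact hs _ _ hpq
            · left; rfl) hs
        refine ⟨g, hg, ?_⟩
        rw [Finset.card_pair e3] at hcard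
        omega
      · right
        -- star
        have hstar : (∀ x ∈ V, ∀ y ∈ V, r x y → x = a ∨ y = a) ∨
            (∀ x ∈ V, ∀ y ∈ V, r x y → x = b ∨ y = b) := by
          by_contra hcon
          push Not at hcon
          obtain ⟨⟨x, hx, y, hy, hxy, hxa, hya⟩, ⟨z, hz, w, hw, hzw, hzb, hwb⟩⟩ := hcon
          -- an edge (b, y') with y' ≠ a
          have hby : ∃ y' ∈ V, r b y' ∧ y' ≠ a := by
            by_cases hxb : x = b
            · exact ⟨y, hy, hxb ▸ hxy, hya⟩
            · by_cases hyb : y = b
              · exact ⟨x, hx, hyb ▸ hs _ _ hxy, hxa⟩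
              · exact absurd ⟨a, ha, b, hb, x, hx, y, hy, hab, hxy, Ne.symm hxa, Ne.symm hya,
                  Ne.symm hxb, Ne.symm hyb⟩ hE2
          have haw : ∃ w' ∈ V, r a w' ∧ w' ≠ b := by
            by_cases hza : z = a
            · exact ⟨w, hw, hza ▸ hzw, hwb⟩
            · by_cases hwa : w = a
              · exact ⟨z, hz, hwa ▸ hs _ _ hzw, hzb⟩
              · exact absurd ⟨a, ha, b, hb, z, hz, w, hw, hab, hzw, Ne.symm hza, Ne.symm hwa,
                  Ne.symm hzb, Ne.symm hwb⟩ hE2
          obtain ⟨y', hy', hby', hy'a⟩ := hby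
          obtain ⟨w', hw', haw', hw'b⟩ := haw
          by_cases hyw : y' = w'
          · subst hyw
            exact hT ⟨y', hy', a, ha, b, hb, hs _ _ haw', hs _ _ hby', hab⟩
          · exact hE2 ⟨b, hb, y', hy', a, ha, w', hw', hby', haw', Ne.symm hab',
              Ne.symm hw'b, hy'a, hyw⟩
        rcases hstar with hst | hst
        · refine ⟨V.erase a, Finset.erase_subset _ _, ?_, ?_⟩
          · rw [Finset.card_erase_of_mem ha]; omega
          · intro x hx y hy z _ hxy _
            rw [Finset.mem_erase] at hx hy
            rcases hst x hx.2 y hy.2 hxy with h | h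
            · exact absurd h hx.1
            · exact absurd h hy.1
        · refine ⟨V.erase b, Finset.erase_subset _ _, ?_, ?_⟩
          · rw [Finset.card_erase_of_mem hb]; omega
          · intro x hx y hy z _ hxy _
            rw [Finset.mem_erase] at hx hy
            rcases hst x hx.2 y hy.2 hxy with h | h
            · exact absurd h hx.1
            · exact absurd h hy.1
    · right
      refine ⟨(V.erase a).erase b, (Finset.erase_subset _ _).trans (Finset.erase_subset _ _),
        ?_, ?_⟩
      · rw [Finset.card_erase_of_mem (Finset.mem_erase.2 ⟨Ne.symm hab', hb⟩),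
          Finset.card_erase_of_mem ha]
        omega
      · intro x hx y hy z _ hxy _
        simp only [Finset.mem_erase] at hx hy
        exact absurd ⟨a, ha, b, hb, x, hx.2.2, y, hy.2.2, hab, hxy, Ne.symm hx.2.1,
          Ne.symm hy.2.1, Ne.symm hx.1, Ne.symm hy.1⟩ hE2

end Vale.Agent.H14
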