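import Vale.Agent.H14.Borsuk.Gram
import Vale.Agent.H14.Borsuk.GraphLemma

/-!
# Borsuk partitions of point sets with at most `d + 4` points
-/

namespace Vale.Agent.H14

open Finset

variable {E : Type*} [NormedAddCommGroup E] [InnerProductSpace ℝ E]

omit [InnerProductSpace ℝ E] in
/-- A finite set all of whose mutual distances are `< D` has diameter `< D`. -/
theorem diam_lt_of_finset (F : Finset E) (D : ℝ) (hD : 0 < D)
    (h : ∀ x ∈ F, ∀ y ∈ F, dist x y < D) : Metric.diam (F : Set E) < D := by
  classical
  rcases F.eq_empty_or_nonempty with rfl | hne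
  · simpa using hD
  · have hne2 : (F ×ˢ F).Nonempty := hne.product hne
    set c := (F ×ˢ F).sup' hne2 (fun p => dist p.1 p.2) with hc
    have hcD : c < D := by
      rw [hc, Finset.sup'_lt_iff]
      intro p hp
      rw [Finset.mem_product] at hp
      exact h p.1 hp.1 p.2 hp.2
    have hle : ∀ x ∈ F, ∀ y ∈ F, dist x y ≤ c := by
      intro x hx y hy
      exact Finset.le_sup' (fun p : E × E => dist p.1 p.2) (Finset.mk_mem_product hx hy)
    have hc0 : 0 ≤ c := by
      obtain ⟨x, hx⟩ := hne
      exact le_trans dist_nonneg (hle x hx x hx)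
    exact lt_of_le_of_lt (Metric.diam_le_of_forall_dist_le hc0
      (fun x hx y hy => hle x (by simpa using hx) y (by simpa using hy))) hcD

omit [InnerProductSpace ℝ E] in
/-- A map with at most `m + 1` values on `X` whose fibres consist of mutually close points
yields a cover of `X` by `m + 1` parts of diameter `< D`. -/
theorem exists_cover_of_map [DecidableEq E] (X : Finset E) (D : ℝ) (hD : 0 < D) (m : ℕ)
    (g : E → E)
    (hg : ∀ x ∈ X, ∀ y ∈ X, g x = g y → dist x y < D) (hcard : (X.image g).card ≤ m + 1) :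
    ∃ f : E → Fin (m + 1), ∀ i, Metric.diam {x | x ∈ X ∧ f x = i} < D := by
  classical
  let e := (X.image g).equivFin
  refine ⟨fun x => if hx : g x ∈ X.image g then Fin.castLE hcard (e ⟨g x, hx⟩) else 0, ?_⟩
  intro i
  have hset : {x | x ∈ X ∧ (if hx : g x ∈ X.image g then Fin.castLE hcard (e ⟨g x, hx⟩) else 0) = i}
      = ((X.filter (fun x => (if hx : g x ∈ X.image g then Fin.castLE hcard (e ⟨g x, hx⟩)
          else 0) = i) : Finset E) : Set E) := by
    ext x; simp
  rw [hset]
  apply diam_lt_of_finset _ D hD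
  intro x hx y hy
  rw [Finset.mem_filter] at hx hy
  have hgx : g x ∈ X.image g := Finset.mem_image_of_mem g hx.1
  have hgy : g y ∈ X.image g := Finset.mem_image_of_mem g hy.1
  have h1 := hx.2
  have h2 := hy.2
  rw [dif_pos hgx] at h1
  rw [dif_pos hgy] at h2
  have h3 : Fin.castLE hcard (e ⟨g x, hgx⟩) = Fin.castLE hcard (e ⟨g y, hgy⟩) := by
    rw [h1, h2]
  have h4 := e.injective (Fin.castLE_injective hcard h3)
  exact hg x hx.1 y hy.1 (Subtype.ext_iff.1 h4)

/-- A set in which every point has at most one partner at distance `< D` (all distances being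
`≤ D`) has at most `finrank + 1` points. -/
theorem card_le_of_sparse [FiniteDimensional ℝ E] [DecidableEq E] (R : Finset E) (D : ℝ)
    (hle : ∀ x ∈ R, ∀ y ∈ R, dist x y ≤ D)
    (hsp : ∀ x ∈ R, ∀ y ∈ R, ∀ z ∈ R, y ≠ x → z ≠ x → dist x y < D → dist x z < D → y = z) :
    R.card ≤ Module.finrank ℝ E + 1 := by
  by_cases hD : 0 < D
  swap
  · -- all points coincide
    have hsub : R.card ≤ 1 := by
      rw [Finset.card_le_one]
      intro x hx y hy
      have h1 := hle x hx y hy
      have h2 : dist x y ≤ 0 := by linarith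
      exact dist_le_zero.1 h2
    omega
  apply card_le_of_diag_dom R D hle
  intro x hx
  by_cases hex : ∃ y ∈ R.erase x, dist x y < D
  · obtain ⟨y0, hy0, hy0D⟩ := hex
    rw [← Finset.add_sum_erase _ _ hy0]
    have hzero : ∑ y ∈ (R.erase x).erase y0, (D ^ 2 - dist x y ^ 2) = 0 := by
      apply Finset.sum_eq_zero
      intro y hy
      simp only [Finset.mem_erase] at hy hy0
      have h1 : ¬ dist x y < D := by
        intro h
        exact hy.1 (hsp x hx y hy.2.2 y0 hy0.2 hy.2.1 hy0.1 h hy0D)
      have h2 : dist x y = D := le_antisymm (hle x hx y hy.2.2) (not_lt.1 h1)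
      rw [h2]; ring
    rw [hzero, add_zero]
    have hpos : 0 < dist x y0 := by
      rw [dist_pos]
      exact fun h => (Finset.mem_erase.1 hy0).1 h.symm
    nlinarith
  · push Not at hex
    have hzero : ∑ y ∈ R.erase x, (D ^ 2 - dist x y ^ 2) = 0 := by
      apply Finset.sum_eq_zero
      intro y hy
      have h2 : dist x y = D := le_antisymm (hle x hx y (Finset.mem_of_mem_erase hy)) (hex y hy)
      rw [h2]; ring
    rw [hzero]
    positivity

/-- **Borsuk partition for few points.** A set of at least two and at most `d + 4` points in a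
`d`-dimensional real inner product space is a union of `d + 1` subsets of smaller diameter. -/
theorem borsuk_few_points [FiniteDimensional ℝ E] (X : Finset E) (h2 : 2 ≤ X.card)
    (h4 : X.card ≤ Module.finrank ℝ E + 4) :
    ∃ f : E → Fin (Module.finrank ℝ E + 1),
      ∀ i, Metric.diam {x | x ∈ X ∧ f x = i} < Metric.diam (X : Set E) := by
  classical
  set D := Metric.diam (X : Set E) with hDdef
  have hbdd : Bornology.IsBounded (X : Set E) := X.finite_toSet.isBounded
  have hle : ∀ x ∈ X, ∀ y ∈ X, dist x y ≤ D := fun x hx y hy =>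
    Metric.dist_le_diam_of_mem hbdd (by simpa using hx) (by simpa using hy)
  have hD : 0 < D := by
    obtain ⟨x, hx, y, hy, hxy⟩ := Finset.one_lt_card.1 h2
    exact lt_of_lt_of_le (dist_pos.2 hxy) (hle x hx y hy)
  rcases graph_dichotomy X (fun x y => x ≠ y ∧ dist x y < D)
      (fun x y h => ⟨h.1.symm, by rw [dist_comm]; exact h.2⟩) (fun x h => h.1 rfl)
      (Module.finrank ℝ E) h4 with ⟨g, hg, hcard⟩ | ⟨R, hRX, hRcard, hRsp⟩
  · apply exists_cover_of_map X D hD _ g _ hcard
    intro x hx y hy hxy
    rcases hg x hx y hy hxy with h | h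
    · rw [h, dist_self]; exact hD
    · exact h.2
  · exfalso
    have := card_le_of_sparse R D (fun x hx y hy => hle x (hRX hx) y (hRX hy))
      (fun x hx y hy z hz hyx hzx hxy hxz =>
        hRsp x hx y hy z hz ⟨hyx.symm, hxy⟩ ⟨hzx.symm, hxz⟩)
    omega

end Vale.Agent.H14
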