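import Mathlib

/-!
# A diagonal-dominance lemma for finite point sets in Euclidean space

If `R` is a finite set of points of a finite-dimensional real inner product space, all of whose
mutual distances are at most `D`, and for every `x ∈ R` the total defect
`∑ y ≠ x, (D^2 - dist x y^2)` is smaller than `D^2`, then `R` is affinely independent; in
particular it has at most `finrank + 1` points.
-/

namespace Vale.Agent.H14

open Finset

variable {E : Type*} [NormedAddCommGroup E] [InnerProductSpace ℝ E]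

/-- For weights summing to zero with weighted sum of points zero, the weighted sum of squared
distances vanishes. -/
theorem sum_sum_weight_dist_sq_eq_zero (R : Finset E) (w : E → ℝ)
    (h1 : ∑ e ∈ R, w e • e = 0) (h0 : ∑ e ∈ R, w e = 0) :
    ∑ x ∈ R, ∑ y ∈ R, w x * w y * dist x y ^ 2 = 0 := by
  have key : ∀ x y : E, w x * w y * dist x y ^ 2 =
      w y * (w x * ‖x‖ ^ 2) + w x * (w y * ‖y‖ ^ 2) - 2 * inner ℝ (w x • x) (w y • y) := by
    intro x y
    rw [dist_eq_norm, norm_sub_sq_real, inner_smul_left, inner_smul_right]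
    simp only [conj_trivial]
    ring
  simp only [key]
  simp only [Finset.sum_sub_distrib, Finset.sum_add_distrib, ← Finset.mul_sum, ← Finset.sum_mul]
  have h2 : ∑ x ∈ R, ∑ y ∈ R, inner ℝ (w x • x) (w y • y) = 0 := by
    simp only [← inner_sum, h1, inner_zero_right, Finset.sum_const_zero]
  rw [h0, h2]
  simp

/-- Diagonal dominance: a finite set `R` in a real inner product space of dimension `d`,
with all distances at most `D` and `∑_{y ≠ x} (D^2 - dist x y^2) < D^2` for each `x ∈ R`,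
has at most `d + 1` points. -/
theorem card_le_of_diag_dom [FiniteDimensional ℝ E] [DecidableEq E] (R : Finset E) (D : ℝ)
    (hle : ∀ x ∈ R, ∀ y ∈ R, dist x y ≤ D)
    (hdd : ∀ x ∈ R, ∑ y ∈ R.erase x, (D ^ 2 - dist x y ^ 2) < D ^ 2) :
    R.card ≤ Module.finrank ℝ E + 1 := by
  by_contra hcon
  rw [not_le] at hcon
  obtain ⟨w, h1, h0, x0, hx0, hw0⟩ :=
    Module.exists_nontrivial_relation_sum_zero_of_finrank_succ_lt_card (R := ℝ) hcon
  have hS := sum_sum_weight_dist_sq_eq_zero R w h1 h0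
  -- rewrite with defects
  set δ : E → E → ℝ := fun x y => D ^ 2 - dist x y ^ 2 with hδ
  have hδnn : ∀ x ∈ R, ∀ y ∈ R, 0 ≤ δ x y := by
    intro x hx y hy
    have := hle x hx y hy
    have h0' : 0 ≤ dist x y := dist_nonneg
    simp only [hδ]
    nlinarith
  have hδsymm : ∀ x y, δ x y = δ y x := by
    intro x y; simp only [hδ, dist_comm]
  have hδdiag : ∀ x, δ x x = D ^ 2 := by
    intro x; simp [hδ]
  have hT : ∑ x ∈ R, ∑ y ∈ R, w x * w y * δ x y = 0 := by
    have : ∀ x y, w x * w y * δ x y = D ^ 2 * (w x * w y) - w x * w y * dist x y ^ 2 := by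
      intro x y; simp only [hδ]; ring
    simp only [this, Finset.sum_sub_distrib, hS, sub_zero, ← Finset.mul_sum, ← Finset.sum_mul, h0]
    simp
  -- split off the diagonal
  have hsplit : ∑ x ∈ R, ∑ y ∈ R, w x * w y * δ x y
      = ∑ x ∈ R, (w x ^ 2 * D ^ 2) + ∑ x ∈ R, ∑ y ∈ R.erase x, w x * w y * δ x y := by
    rw [← Finset.sum_add_distrib]
    refine Finset.sum_congr rfl (fun x hx => ?_)
    rw [← Finset.add_sum_erase R _ hx, hδdiag]
    ring
  -- lower bound for the off-diagonal part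
  have hoff : ∑ x ∈ R, ∑ y ∈ R.erase x, w x * w y * δ x y
      ≥ - ∑ x ∈ R, w x ^ 2 * ∑ y ∈ R.erase x, δ x y := by
    have hterm : ∀ x ∈ R, ∀ y ∈ R.erase x,
        w x * w y * δ x y ≥ - (w x ^ 2 * δ x y / 2 + w y ^ 2 * δ x y / 2) := by
      intro x hx y hy
      have hd := hδnn x hx y (Finset.mem_of_mem_erase hy)
      nlinarith [sq_nonneg (w x + w y), mul_nonneg hd (sq_nonneg (w x + w y))]
    have h1' : ∑ x ∈ R, ∑ y ∈ R.erase x, w x * w y * δ x y
        ≥ ∑ x ∈ R, ∑ y ∈ R.erase x, - (w x ^ 2 * δ x y / 2 + w y ^ 2 * δ x y / 2) := by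
      refine Finset.sum_le_sum (fun x hx => Finset.sum_le_sum (fun y hy => ?_))
      exact hterm x hx y hy
    have hswap : ∑ x ∈ R, ∑ y ∈ R.erase x, w y ^ 2 * δ x y / 2
        = ∑ x ∈ R, ∑ y ∈ R.erase x, w x ^ 2 * δ x y / 2 := by
      rw [Finset.sum_comm' (t' := R) (s' := fun y => R.erase y)]
      · refine Finset.sum_congr rfl (fun y _ => Finset.sum_congr rfl (fun x _ => ?_))
        rw [hδsymm]
      · intro x y
        simp only [Finset.mem_erase]
        constructor
        · rintro ⟨hx, hyx, hy⟩; exact ⟨⟨fun h => hyx h.symm, hx⟩, hy⟩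
        · rintro ⟨⟨hxy, hx⟩, hy⟩; exact ⟨hx, fun h => hxy h.symm, hy⟩
    have h2' : ∑ x ∈ R, ∑ y ∈ R.erase x, - (w x ^ 2 * δ x y / 2 + w y ^ 2 * δ x y / 2)
        = - ∑ x ∈ R, w x ^ 2 * ∑ y ∈ R.erase x, δ x y := by
      simp only [Finset.sum_neg_distrib, Finset.sum_add_distrib, hswap]
      rw [neg_inj, ← Finset.sum_add_distrib]
      refine Finset.sum_congr rfl (fun x _ => ?_)
      rw [Finset.mul_sum, ← Finset.sum_add_distrib]
      refine Finset.sum_congr rfl (fun y _ => ?_)
      ring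
    linarith
  have hpos : 0 < ∑ x ∈ R, w x ^ 2 * (D ^ 2 - ∑ y ∈ R.erase x, δ x y) := by
    refine Finset.sum_pos' (fun x hx => ?_) ⟨x0, hx0, ?_⟩
    · exact mul_nonneg (sq_nonneg _) (by have := hdd x hx; simp only [hδ]; linarith)
    · have h3 : 0 < w x0 ^ 2 := by positivity
      have h4 := hdd x0 hx0
      exact mul_pos h3 (by simp only [hδ]; linarith)
  have hfinal : ∑ x ∈ R, w x ^ 2 * (D ^ 2 - ∑ y ∈ R.erase x, δ x y)
      = ∑ x ∈ R, (w x ^ 2 * D ^ 2) - ∑ x ∈ R, w x ^ 2 * ∑ y ∈ R.erase x, δ x y := by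
    rw [← Finset.sum_sub_distrib]
    refine Finset.sum_congr rfl (fun x _ => ?_)
    ring
  linarith

end Vale.Agent.H14
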